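import Vale.Agent.P221.H790.Step

/-!
# P221, row R6: down a Moore tower
-/

open CategoryTheory MonoidalCategory Limits Pretriangulated
open Vale.Agent.P251.T Vale.Agent.P251.S Vale.Agent.P251.H Vale.Agent.P251.M
  Vale.Agent.P251.I Vale.Agent.P251.X

universe v u

set_option linter.unusedSectionVars false

namespace Vale.Agent.P221.H790

open Vale.Agent.P251.St Vale.Agent.P251.St.SHCat Vale.Agent.P257.St

variable {T : SHCat} {p n : ℕ} {F W : ℕ → T.C} {d : ℕ → ℤ}
  {v : ∀ i, Hom ((F i)⟦d i⟧) (F i)} {g : ∀ i, Hom (F i) (F (i + 1))}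
  {h : ∀ i, Hom (F (i + 1)) (sus ((F i)⟦d i⟧))}

/-- Down a Moore tower: the fibre of a localization. -/
theorem fibre_tower (hd : ∀ i < n, 0 < d i) (D : ∀ i < n, SHCat.Dist (v i) (g i) (h i))
    (hW : ∀ i < n, IsTelescope (v i) (W i)) {C : T.C} (hWC : ∀ i < n, IsZero (W i ⊗ C))
    (hV : ∃ c, Above c (F n ⊗ C)) (hFT : FT p (F n ⊗ C)) :
    (∃ c, Above c (F 0 ⊗ C)) ∧ FT p (F 0 ⊗ C) := by
  have main : ∀ j i : ℕ, i + j = n → (∃ c, Above c (F i ⊗ C)) ∧ FT p (F i ⊗ C) := by
    intro j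
    induction j with
    | zero =>
      intro i hi
      obtain rfl : i = n := by omega
      exact ⟨hV, hFT⟩
    | succ j ih =>
      intro i hi
      obtain ⟨⟨c, hc⟩, h2⟩ := ih (i + 1) (by omega)
      have h3 := fibre_step (hd i (by omega)) (D i (by omega)) (hW i (by omega))
        (hWC i (by omega)) hc h2
      exact ⟨⟨_, h3.1⟩, h3.2⟩
  exact main n 0 (by omega)

/-- `X ⊗ M = 0` for the members of a Moore tower over an object on which `p` is invertible -/
theorem tower_zero (D : ∀ i < n, SHCat.Dist (v i) (g i) (h i)) {A : T.C}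
    (h0 : IsZero (F 0 ⊗ A)) : ∀ i ≤ n, IsZero (F i ⊗ A) := by
  intro i
  induction i with
  | zero => exact fun _ => h0
  | succ i ih =>
    intro hi
    have h1 := ih (by omega)
    have D1 := Vale.Agent.P251.S.dist_whiskerRight A (D i (by omega))
    have h2 : IsZero ((F i)⟦d i⟧ ⊗ A) :=
      ((shiftFunctor T.C (d i)).map_isZero h1).of_iso (shTen (F i) A (d i))
    refine (Triangle.isZero₃_iff_isIso₁ _ D1).2 ?_
    exact ⟨⟨0, h2.eq_of_src _ _, h1.eq_of_src _ _⟩⟩

end Vale.Agent.P221.H790
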